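import Vale.Agent.P283R.Hy.Pt

/-!
# P283R, block HY: two adjacent components, the fixed locus
-/

set_option linter.all false

open MvPolynomial Set

noncomputable section

namespace Vale.Agent.P283R.Hy

open Vale.Agent.P297Z.Dim

variable {k σ τ : Type} [Field k] [Fintype σ] [DecidableEq σ] [Fintype τ] [DecidableEq τ]
  {κ : Type} [Field κ] [Algebra k κ]

/-- the vertex -/
def vx (k σ : Type) [Field k] : Ideal (MvPolynomial σ k) :=
  RingHom.ker (constantCoeff : MvPolynomial σ k →+* k)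

theorem vx_max : (vx k σ).IsMaximal :=
  RingHom.ker_isMaximal_of_surjective _ fun a => ⟨C a, constantCoeff_C _ a⟩

theorem X_vx (j : σ) : X j ∈ vx k σ := constantCoeff_X k j

theorem vx_le {Q : Ideal (MvPolynomial σ k)} (h : ∀ j, X j ∈ Q) : vx k σ ≤ Q := fun p hp => by
  have : p - C (constantCoeff p) ∈ Q := by
    clear hp
    induction p using MvPolynomial.induction_on with
    | C a => simp
    | add p q hp hq =>
      rw [map_add, map_add, add_sub_add_comm]
      exact Q.add_mem hp hq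
    | mul_X p i hp => simpa using Q.mul_mem_left p (h i)
  rwa [(show constantCoeff p = 0 from hp), map_zero, sub_zero] at this

/-- the variables of weight at least `w` are kept -/
def ph (o : σ → ℝ) (w : ℝ) (x : σ → κ) (j : σ) : MvPolynomial {j // w ≤ o j} κ :=
  open Classical in if h : w ≤ o j then X ⟨j, h⟩ else C (x j)

section fib

variable {o : σ → ℝ} {w : ℝ} {x : σ → κ} {p : MvPolynomial σ k} {n : ℝ}

theorem ph_hom (hx : ∀ j, o j ≠ 0 → x j = 0) (j : σ) :
    IsWeightedHomogeneous (fun i : {j // w ≤ o j} => o i.1) (ph o w x j) (o j) := by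
  unfold ph
  split_ifs with h
  · exact isWeightedHomogeneous_X _ _ _
  · by_cases e : o j = 0
    · rw [e]
      exact isWeightedHomogeneous_C _ _
    · rw [hx j e, map_zero]
      exact isWeightedHomogeneous_zero _ _ _

theorem ph_cc (hx : ∀ j, o j ≠ 0 → x j = 0) (w0 : 0 < w) (p : MvPolynomial σ k) :
    constantCoeff (aeval (ph o w x) p) = aeval x p := by
  have : ∀ j, constantCoeff (ph o w x j) = x j := fun j => by
    unfold ph
    split_ifs with h
    · rw [constantCoeff_X, hx j (w0.trans_le h).ne']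
    · exact constantCoeff_C _ _
  induction p using MvPolynomial.induction_on with
  | C a => simp [IsScalarTower.algebraMap_apply k κ (MvPolynomial _ κ)]
  | add p q hp hq => simp only [map_add, hp, hq]
  | mul_X p i hp => simp only [map_mul, hp, aeval_X, this]

theorem ph_der (i : {j // w ≤ o j}) (p : MvPolynomial σ k) :
    pderiv i (aeval (ph o w x) p) = aeval (ph o w x) (pderiv i.1 p) := by
  classical
  have := der_aeval ((pderiv i : Derivation κ (MvPolynomial {j // w ≤ o j} κ) _).restrictScalars k)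
    (ph o w x) p
  rw [Derivation.coe_restrictScalars] at this
  rw [this, Finset.sum_eq_single i.1]
  · rw [ph, dif_pos i.2, pderiv_X_self, mul_one]
  · intro j _ e
    unfold ph
    split_ifs with h
    · rw [pderiv_X_of_ne fun z => e (congrArg Subtype.val z), mul_zero]
    · rw [pderiv_C, mul_zero]
  · exact fun h => (h (Finset.mem_univ _)).elim

/-- small weights: the polynomial is determined by its linear part -/
theorem low {ι : Type} [Fintype ι] {o : ι → ℝ} (w0 : 0 < w) (ho : ∀ i, w ≤ o i)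
    {G : MvPolynomial ι κ} (h : IsWeightedHomogeneous o G n) (hn : n ≤ w)
    (h0 : constantCoeff G = 0) (h1 : n = w → ∀ i, constantCoeff (pderiv i G) = 0) : G = 0 := by
  classical
  ext m
  by_contra z
  have e := h z
  by_cases m0 : m = 0
  · exact z (m0 ▸ h0)
  obtain ⟨i, hi⟩ := Finsupp.support_nonempty_iff.2 m0
  obtain ⟨m', rfl⟩ := exists_add_of_le (Finsupp.single_le_iff.2
    (Nat.one_le_iff_ne_zero.2 (Finsupp.mem_support_iff.1 hi)))
  rw [map_add, Finsupp.weight_single, one_smul, Finsupp.weight_apply, Finsupp.sum] at e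
  have nn : ∀ j ∈ m'.support, 0 ≤ m' j • o j := fun j _ => nsmul_nonneg (w0.le.trans (ho j)) _
  have s0 := Finset.sum_nonneg nn
  have := ho i
  have s1 := (Finset.sum_eq_zero_iff_of_nonneg nn).1 (by linarith)
  obtain rfl : m' = 0 := by
    by_contra z
    obtain ⟨j, hj⟩ := Finsupp.support_nonempty_iff.2 z
    exact (nsmul_pos (w0.trans_le (ho j)) (Finsupp.mem_support_iff.1 hj)).ne' (s1 j hj)
  have := h1 (by linarith) i
  rw [constantCoeff_eq, coeff_pderiv] at this
  simp at this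
  simp [this] at z

/-- **the fibre over a point of the fixed locus** -/
theorem fibre {g : τ → MvPolynomial σ k} (hx : ∀ j, o j ≠ 0 → x j = 0) (w0 : 0 < w)
    (hg : ∀ l, aeval x (g l) = 0) (A : Finset τ) (hA : A.card < Fintype.card {j // w ≤ o j})
    (red : ∀ l, l ∉ A → aeval (ph o w x) (g l) ∈
      Ideal.span (range fun a : A => aeval (ph o w x) (g a))) :
    ∃ q ∈ (Ideal.span (range g)).minimalPrimes, (∀ p ∈ q, aeval x p = 0) ∧
      ∃ j, w ≤ o j ∧ X j ∉ q := by
  classical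
  have mx := vx_max (k := κ) (σ := {j // w ≤ o j})
  have := mx.isPrime
  obtain ⟨Q, hQ, le⟩ := Ideal.exists_minimalPrimes_le
    (I := Ideal.span (range fun a : A => aeval (ph o w x) (g a))) (J := vx κ _)
    (Ideal.span_le.2 (range_subset_iff.2 fun a => (ph_cc hx w0 _).trans (hg a)))
  have := hQ.1.1
  have h2 := krull' (k := κ) (q := ⊥) (p := Q) (by rwa [bot_sup_eq])
  rw [td_bot, Fintype.card_coe] at h2
  obtain ⟨q, hq, le'⟩ := Ideal.exists_minimalPrimes_le (I := Ideal.span (range g))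
    (J := Q.comap (aeval (ph o w x) : MvPolynomial σ k →ₐ[k] _))
    (Ideal.span_le.2 (range_subset_iff.2 fun l => by
      by_cases h : l ∈ A
      · exact hQ.1.2 (Ideal.subset_span ⟨⟨l, h⟩, rfl⟩)
      · exact hQ.1.2 (red l h)))
  refine ⟨q, hq, fun p hp => (ph_cc hx w0 p).symm.trans (le (le' hp)), ?_⟩
  by_contra! z
  obtain rfl : vx κ _ = Q := le_antisymm (vx_le fun j => by
    have := le' (z j.1 j.2)
    rwa [Ideal.mem_comap, aeval_X, ph, dif_pos j.2] at this) le
  rw [td_maximal] at h2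
  omega

end fib

variable [CharZero k] {g : τ → MvPolynomial σ k}

open Classical in
/-- **an adjacent component** -/
theorem adj (h : LC g) (sq : ∀ l j, pderiv j (g l) ∈ vx k σ) {q : Ideal (MvPolynomial σ k)}
    (hq : q ∈ (Ideal.span (range g)).minimalPrimes) (qm : q ≤ vx k σ) {o : σ → ℝ}
    (ho : ∀ j, o j ≠ 0 → X j ∈ q) {j₀ : σ} (h0 : 0 < o j₀) {n : τ → ℝ}
    (hn : ∀ l, IsWeightedHomogeneous o (g l) (n l)) :
    ∃ δ : Ideal (MvPolynomial σ k), δ.IsPrime ∧ q ≤ δ ∧ δ ≤ vx k σ ∧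
      td k (MvPolynomial σ k ⧸ q) = td k (MvPolynomial σ k ⧸ δ) + 1 ∧
      ∃ q' ∈ (Ideal.span (range g)).minimalPrimes, q' ≤ δ ∧ ∃ j, 0 < o j ∧ X j ∉ q' := by
  have := hq.1.1
  have := (vx_max (k := k) (σ := σ)).isPrime
  have gq : ∀ l, g l ∈ q := fun l => hq.1.2 (Ideal.subset_span ⟨l, rfl⟩)
  have hx : ∀ j, o j ≠ 0 → pt q j = 0 := fun j e => pt_X.2 (ho j e)
  have li := Fintype.linearIndependent_iff.1 (rank h hq).2
  have key : ∀ (w : ℝ) (u : {l // w ≤ n l} → Kq q),
      (∀ j : {j // w ≤ o j}, ∑ l, u l * jm (pt q) g l.1 j.1 = 0) → u = 0 := fun w u hu => by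
    have := li (fun l => if h : w ≤ n l then u ⟨l, h⟩ else 0) (funext fun j => by
      rw [Finset.sum_apply]
      have e : ∀ l, ((if h : w ≤ n l then u ⟨l, h⟩ else 0) • (jm (pt q) g).row l) j =
          if h : w ≤ n l then u ⟨l, h⟩ * jm (pt q) g l j else 0 := fun l => by
        split_ifs <;> simp [Matrix.row]
      simp only [e]
      rw [Finset.sum_dite, Finset.sum_const_zero, add_zero]
      by_cases hj : w ≤ o j
      · refine Eq.trans ?_ (hu ⟨j, hj⟩)
        exact Fintype.sum_equiv (Equiv.subtypeEquivRight (by simp)) _ _ fun l => rfl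
      · exact Finset.sum_eq_zero fun l _ => by
          rw [jm_zero hx (hn l) fun z => hj (z ▸ (Finset.mem_filter.1 l.2).2), mul_zero])
    exact funext fun l => by simpa [l.2] using this l.1
  have le : ∀ w : ℝ, Fintype.card {l // w ≤ n l} ≤ Fintype.card {j // w ≤ o j} := fun w => by
    have : LinearIndependent (Kq q) fun (l : {l // w ≤ n l}) (j : {j // w ≤ o j}) =>
        jm (pt q) g l.1 j.1 := Fintype.linearIndependent_iff.2 fun u hu =>
      congrFun (key w u fun j => by simpa using congrFun hu j)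
    simpa using this.fintype_card_le_finrank
  have lo : ∀ {κ : Type} [Field κ] [Algebra k κ] {x : σ → κ} {w : ℝ}, (∀ j, o j ≠ 0 → x j = 0) →
      0 < w → ∀ l, aeval x (g l) = 0 → n l < w → aeval (ph o w x) (g l) = 0 :=
    fun hx w0 l z lt => low w0 (fun i => i.2) (hom_aeval (ph_hom hx) (hn l)) lt.le
      ((ph_cc hx w0 _).trans z) fun e => (lt.ne e).elim
  have eq : Fintype.card {l // o j₀ ≤ n l} = Fintype.card {j // o j₀ ≤ o j} := by
    refine le_antisymm (le _) (not_lt.1 fun lt => ?_)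
    obtain ⟨q', h1, h2, j, h3, h4⟩ := fibre hx h0 (fun l => pt_zero.2 (gq l))
      (Finset.univ.filter fun l => o j₀ ≤ n l) (by rwa [← Fintype.card_subtype]) fun l hl => by
        rw [lo hx h0 l (pt_zero.2 (gq l)) (by simpa using hl)]
        exact Ideal.zero_mem _
    exact h4 (hq.2 h1.1 (fun p hp => pt_zero.1 (h2 p hp)) (ho j (h0.trans_le h3).ne'))
  obtain ⟨e⟩ := Fintype.card_eq.1 eq
  let Δ : Matrix {l // o j₀ ≤ n l} {l // o j₀ ≤ n l} (MvPolynomial σ k) :=
    Matrix.of fun l l' => pderiv (e l').1 (g l.1)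
  have dt : ∀ r : Ideal (MvPolynomial σ k), aeval (pt r) Δ.det =
      (Matrix.of fun l l' : {l // o j₀ ≤ n l} => jm (pt r) g l.1 (e l').1).det := fun r =>
    AlgHom.map_det _ _
  have d1 : Δ.det ∉ q := fun z => by
    rw [← pt_zero, dt] at z
    obtain ⟨u, u0, hu⟩ := Matrix.exists_vecMul_eq_zero_iff.2 z
    exact u0 (key _ u fun j => by
      have := congrFun hu (e.symm j)
      simpa [Matrix.vecMul, dotProduct] using this)
  have d2 : Δ.det ∈ vx k σ := by
    change constantCoeff Δ.det = 0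
    rw [RingHom.map_det]
    exact Matrix.det_eq_zero_of_row_eq_zero (e.symm ⟨j₀, le_rfl⟩) fun l => sq _ _
  obtain ⟨δ, hδ, dm⟩ := Ideal.exists_minimalPrimes_le (I := q ⊔ Ideal.span {Δ.det}) (J := vx k σ)
    (sup_le qm ((Ideal.span_singleton_le_iff_mem _).2 d2))
  have := hδ.1.1
  have qd : q ≤ δ := le_sup_left.trans hδ.1.2
  refine ⟨δ, this, qd, dm, td_step d1 hδ, ?_⟩
  have hy : ∀ j, o j ≠ 0 → pt δ j = 0 := fun j e => pt_X.2 (qd (ho j e))
  have gy : ∀ l, aeval (pt δ) (g l) = 0 := fun l => pt_zero.2 (qd (gq l))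
  have z := pt_zero.2 (hδ.1.2 (Ideal.mem_sup_right (Ideal.mem_span_singleton_self _)))
  rw [dt] at z
  obtain ⟨u, u0, hu⟩ := Matrix.exists_vecMul_eq_zero_iff.2 z
  obtain ⟨l₀, hl⟩ := Function.ne_iff.1 u0
  have w0 : 0 < n l₀ := h0.trans_le l₀.2
  let B := Finset.univ.filter fun l : {l // o j₀ ≤ n l} => n l = n l₀
  have G : ∑ l ∈ B, C (u l) * aeval (ph o (n l₀) (pt δ)) (g l) = 0 := by
    refine low w0 (fun i => i.2) (IsWeightedHomogeneous.sum _ _ _ fun l hl =>
      ((Finset.mem_filter.1 hl).2 ▸ hom_aeval (ph_hom hy) (hn l)).C_mul _) le_rfl ?_ fun _ i => ?_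
    · simp only [map_sum, map_mul, ph_cc hy w0, gy, mul_zero, Finset.sum_const_zero]
    · simp only [map_sum, pderiv_C_mul, map_mul, ph_der, ph_cc hy w0, constantCoeff_C]
      by_cases ei : o i = n l₀
      · have := congrFun hu (e.symm ⟨i, l₀.2.trans i.2⟩)
        simp only [Matrix.vecMul, dotProduct, Matrix.of_apply, Equiv.apply_symm_apply] at this
        refine Eq.trans ?_ this
        refine Finset.sum_subset (Finset.subset_univ _) fun l _ hl => ?_
        exact mul_eq_zero_of_right _ (jm_zero hy (hn l) fun z => hl (by simp [B, z, ei]))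
      · exact Finset.sum_eq_zero fun l hl => mul_eq_zero_of_right _
          (jm_zero hy (hn l) fun z => ei (z ▸ (Finset.mem_filter.1 hl).2))
  obtain ⟨q', h1, h2, j, h3, h4⟩ := fibre hy w0 gy
    ((Finset.univ.filter fun l => n l₀ ≤ n l).erase l₀)
    ((Finset.card_erase_lt_of_mem (by simp)).trans_le (by
      rw [← Fintype.card_subtype]; exact le _)) fun l hl' => by
      by_cases el : l = l₀
      · rw [← Finset.add_sum_erase _ _ (show l₀ ∈ B by simp [B]), add_eq_zero_iff_eq_neg] at G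
        rw [el, ← Ideal.unit_mul_mem_iff_mem _ ((Ne.isUnit hl).map C), G]
        refine neg_mem (Ideal.sum_mem _ fun a ha => Ideal.mul_mem_left _ _
          (Ideal.subset_span ⟨⟨a, ?_⟩, rfl⟩))
        rw [Finset.mem_erase] at ha ⊢
        exact ⟨fun z => ha.1 (Subtype.ext z), by simp [(Finset.mem_filter.1 ha.2).2]⟩
      · rw [lo hy w0 l (gy l) (by simpa [el] using hl')]
        exact Ideal.zero_mem _
  exact ⟨q', h1, fun p hp => pt_zero.1 (h2 p hp), j, w0.trans_le h3, h4⟩

open Classical in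
theorem fix0 (h : LC g) {x : σ → κ} (gd : ∀ l, aeval x (g l) = 0) {ι : Type} [Fintype ι]
    {D : ι → Derivation k κ κ} (hD : LinearIndependent κ fun i j => D i (x j))
    {η : σ → ℝ} (hx : ∀ j, η j ≠ 0 → x j = 0) {n : τ → ℝ}
    (hn : ∀ l, IsWeightedHomogeneous η (g l) (n l)) :
    Fintype.card τ + (Finset.univ.filter fun l => n l = 0).card +
      2 * Fintype.card ι + Fintype.card {j // η j ≠ 0} ≤ 2 * Fintype.card σ := by
  let v : ι ⊕ {j // η j ≠ 0} → σ → κ := Sum.elim (fun i j => D i (x j)) fun j => Pi.single j.1 1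
  have li : LinearIndependent κ v := Fintype.linearIndependent_iff.2 fun c hc => by
    rw [Fintype.sum_sum_type] at hc
    have h2 : ∀ j, c (.inr j) = 0 := fun j => by
      have := congrFun hc j.1
      simpa [v, hx j.1 j.2, Pi.single_apply, Subtype.val_inj] using this
    simp only [h2, zero_smul, Finset.sum_const_zero, add_zero] at hc
    rintro (i | j)
    · exact Fintype.linearIndependent_iff.1 hD (fun i => c (.inl i)) hc i
    · exact h2 j
  have h1 := h κ x gd ι D (Submodule.span κ (range v))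
    (Finset.univ.filter fun l => n l = 0) hD (fun i => Submodule.subset_span ⟨.inl i, rfl⟩)
    fun l hl u hu => by
      induction hu using Submodule.span_induction with
      | mem u hu =>
        obtain ⟨i | j, rfl⟩ := hu
        · exact der_ker (gd l) _
        · simp only [v, Sum.elim_inr, Matrix.mulVec_single_one]
          exact jm_zero hx (hn l) fun z => j.2 (z.symm.trans (Finset.mem_filter.1 hl).2)
      | zero => simp
      | add a b _ _ ha hb => rw [Matrix.mulVec_add, Pi.add_apply, ha, hb, add_zero]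
      | smul a b _ hb => rw [Matrix.mulVec_smul, Pi.smul_apply, hb, smul_zero]
  rw [finrank_span_eq_card li, Fintype.card_sum] at h1
  omega

open Classical in
/-- **the fixed locus is large** -/
theorem fix (h : LC g) {δ : Ideal (MvPolynomial σ k)} [δ.IsPrime] (gd : ∀ l, g l ∈ δ)
    {η : σ → ℝ} (hη : ∀ j, η j ≠ 0 → X j ∈ δ) {n : τ → ℝ}
    (hn : ∀ l, IsWeightedHomogeneous η (g l) (n l)) {f : τ → MvPolynomial σ k}
    (hf : ∀ l, IsWeightedHomogeneous η (f l) (n l)) (f0 : ∀ l, f l ∈ vx k σ) :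
    ∃ r : Ideal (MvPolynomial σ k), r.IsPrime ∧ r ≤ vx k σ ∧ (∀ l, f l ∈ r) ∧
      (∀ j, η j ≠ 0 → X j ∈ r) ∧ Fintype.card τ + 2 * td k (MvPolynomial σ k ⧸ δ) ≤
        td k (MvPolynomial σ k ⧸ r) + Fintype.card σ := by
  obtain ⟨D, hD⟩ := exists_der δ
  have h1 := fix0 (x := pt δ) (D := D) h (fun l => pt_zero.2 (gd l)) hD
    (fun j e => pt_X.2 (hη j e)) hn
  have := (vx_max (k := k) (σ := σ)).isPrime
  let v : {j // η j ≠ 0} ⊕ {l // n l = 0} → MvPolynomial σ k :=
    Sum.elim (fun j => X j.1) fun l => f l.1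
  obtain ⟨r, hr, le⟩ := Ideal.exists_minimalPrimes_le (I := Ideal.span (range v)) (J := vx k σ)
    (Ideal.span_le.2 (range_subset_iff.2 (by
      rintro (j | l)
      exacts [X_vx _, f0 _])))
  have := hr.1.1
  have h2 := krull' (k := k) (q := ⊥) (p := r) (f := v) (by rwa [bot_sup_eq])
  have hX : ∀ j, η j ≠ 0 → X j ∈ r := fun j e => hr.1.2 (Ideal.subset_span ⟨.inl ⟨j, e⟩, rfl⟩)
  rw [td_bot, Fintype.card_sum, Fintype.card_subtype fun l => n l = 0] at h2
  rw [Fintype.card_fin] at h1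
  refine ⟨r, this, le, fun l => ?_, hX, by omega⟩
  by_cases e : n l = 0
  · exact hr.1.2 (Ideal.subset_span ⟨.inr ⟨l, e⟩, rfl⟩)
  · exact hom_mem hX (hf l) e

theorem hom_sub {p : MvPolynomial σ k} {a b : σ → ℝ} {m n : ℝ} (h : IsWeightedHomogeneous a p m)
    (h' : IsWeightedHomogeneous b p n) : IsWeightedHomogeneous (a - b) p (m - n) := fun d z => by
  rw [← h z, ← h' z]
  simp [Finsupp.weight_apply, Finsupp.sum, mul_sub]

/-- **ALG**: `g` is the initial part of `f` for the weight `ζ`; every component of the cone has a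
weight `ξ ≥ ζ` for which `f` is homogeneous; then the difference of two such weights fixes a locus
of codimension at most two -/
theorem alg (h : LC g) {f : τ → MvPolynomial σ k} (sq : ∀ l, ∀ m ∈ (f l).support, 2 ≤ m.degree)
    (sub : ∀ l, (g l).support ⊆ (f l).support) [(Ideal.span (range f)).IsPrime]
    (dim : td k (MvPolynomial σ k ⧸ Ideal.span (range f)) + Fintype.card τ ≤ Fintype.card σ)
    (nz : ∀ j, X j ∉ Ideal.span (range f)) {ζ : σ → ℝ} {d : τ → ℝ}
    (hd : ∀ l, IsWeightedHomogeneous ζ (g l) (d l)) {Ξ : Set (σ → ℝ)} (hζ : ζ ∉ Ξ)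
    (hf : ∀ ξ ∈ Ξ, ∀ l, ∃ n, IsWeightedHomogeneous ξ (f l) n)
    (ho : ∀ q ∈ (Ideal.span (range g)).minimalPrimes, ∃ ξ ∈ Ξ, (∀ j, ζ j ≤ ξ j) ∧
      ∀ j, ξ j ≠ ζ j ↔ X j ∈ q) :
    ∃ ξ ∈ Ξ, ∃ ξ' ∈ Ξ, ∃ r : Ideal (MvPolynomial σ k), r.IsPrime ∧ r ≤ vx k σ ∧ (∀ l, f l ∈ r) ∧
      (∀ j, ξ j ≠ ξ' j → X j ∈ r) ∧ (∃ j, ξ' j < ξ j) ∧ (∃ j, ξ j < ξ' j) ∧
      Fintype.card σ ≤ td k (MvPolynomial σ k ⧸ r) + Fintype.card τ + 2 := by
  have := (vx_max (k := k) (σ := σ)).isPrime
  have f0 : ∀ l, f l ∈ vx k σ := fun l => by_contra fun z => by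
    simpa using sq l 0 (mem_support_iff.2 z)
  have g0 : ∀ l, g l ∈ vx k σ := fun l => by_contra fun z => by
    simpa using sq l 0 (sub l (mem_support_iff.2 z))
  have g1 : ∀ l j, pderiv j (g l) ∈ vx k σ := fun l j => by_contra fun z => by
    have : coeff (0 + Finsupp.single j 1) (g l) ≠ 0 := fun e =>
      z ((coeff_pderiv _ _).trans (by rw [e, zero_mul]))
    simpa using sq l _ (sub l (mem_support_iff.2 this))
  choose n hn using hf
  have gn : ∀ ξ h l, IsWeightedHomogeneous ξ (g l) (n ξ h l) := fun ξ h l m z =>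
    hn ξ h l (mem_support_iff.1 (sub l (mem_support_iff.2 z)))
  obtain ⟨q, hq, qm⟩ := Ideal.exists_minimalPrimes_le (I := Ideal.span (range g)) (J := vx k σ)
    (Ideal.span_le.2 (range_subset_iff.2 g0))
  have := hq.1.1
  obtain ⟨ξ, x0, x1, x2⟩ := ho q hq
  obtain ⟨j₀, h0⟩ := Function.ne_iff.1 (show ξ ≠ ζ from fun e => hζ (e ▸ x0))
  obtain ⟨δ, pd, qd, dm, t1, q', hq', qd', j, y1, y2⟩ := adj h g1 hq qm (o := ξ - ζ)
    (fun j e => (x2 j).1 (sub_ne_zero.1 e)) (sub_pos.2 ((x1 j₀).lt_of_ne h0.symm))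
    fun l => hom_sub (gn ξ x0 l) (hd l)
  obtain ⟨ξ', z0, z1, z2⟩ := ho q' hq'
  have lt : ξ' j < ξ j := (not_not.1 (mt (z2 j).1 y2)).symm ▸ sub_pos.1 y1
  have t2 := (rank h hq).1
  have gq : ∀ l, g l ∈ q := fun l => hq.1.2 (Ideal.subset_span ⟨l, rfl⟩)
  have hg := fun l => hom_sub (gn ξ x0 l) (gn ξ' z0 l)
  have hf := fun l => hom_sub (hn ξ x0 l) (hn ξ' z0 l)
  obtain ⟨r, r1, r2, r3, r4, r5⟩ := fix h (fun l => qd (gq l)) (fun j e => by
    by_cases e' : ξ j = ζ j
    · exact qd' ((z2 j).1 fun z => e (sub_eq_zero.2 (e'.trans z.symm)))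
    · exact qd ((x2 j).1 e')) hg hf f0
  refine ⟨ξ, x0, ξ', z0, r, r1, r2, r3, fun j e => r4 j (sub_ne_zero.2 e), ⟨j, lt⟩, ?_, by omega⟩
  by_contra! z
  obtain ⟨r, r1, -, r3, r4, r5⟩ := fix h gq (fun j e => (x2 j).1
    ((z1 j).trans_lt ((z j).lt_of_ne (sub_ne_zero.1 e).symm)).ne') hg hf f0
  have := eq_of_td_le (k := k) (Ideal.span_le.2 (range_subset_iff.2 r3)) (by omega)
  exact nz j (this ▸ r4 j (sub_pos.2 lt).ne')

end Vale.Agent.P283R.Hy
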