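import Vale.Agent.P283R.Cx.Bas
import Vale.Agent.P283R.Cx.Gav
import Vale.Agent.P283R.Gf.Sm
import Vale.Agent.P287D.Rm.Apx

/-!
# P283R, block HY: a one-parameter group has no fixed locus of codimension two
-/

set_option linter.all false

open Set
open Vale.Agent.P297Z

noncomputable section

namespace Vale.Agent.P283R.Hy

open Vale.Agent.P287D Vale.Agent.P283R.Cx
open Vale.Agent.P283R.To (mon mon_ne mon_add)

/-- independence along a specialisation -/
theorem ind_opt {A κ κ' ι : Type} [CommRing A] [Algebra ℂ A] [Field κ] [Algebra ℂ κ] [Field κ']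
    [Algebra ℂ κ'] (ρ : A →ₐ[ℂ] κ) (ρ' : A →ₐ[ℂ] κ') (h : ∀ b, ρ' b = 0 → ρ b = 0) {y : ι → A}
    (hy : AlgebraicIndependent ℂ fun i => ρ (y i)) {a : A} (h0 : ρ a = 0) (h1 : ρ' a ≠ 0) :
    AlgebraicIndependent ℂ fun o : Option ι => ρ' (o.elim a y) := by
  have k : ∀ m (p : Polynomial (MvPolynomial ι ℂ)), p.natDegree = m →
      ρ' (p.eval₂ (MvPolynomial.aeval y : _ →ₐ[ℂ] A).toRingHom a) = 0 → p = 0 := by
    intro m
    induction m using Nat.strong_induction_on with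
    | _ m ih =>
    intro p hm hp
    have e := hp
    rw [← Polynomial.divX_mul_X_add p, Polynomial.eval₂_add, Polynomial.eval₂_mul_X,
      Polynomial.eval₂_C] at e
    have c0 : p.coeff 0 = 0 := algebraicIndependent_iff.1 hy _ (by
      have := h _ e
      rw [map_add, map_mul, h0, mul_zero, zero_add] at this
      rw [← this, ← MvPolynomial.comp_aeval]
      rfl)
    rw [c0, map_zero, add_zero, map_mul] at e
    by_cases m0 : m = 0
    · rw [Polynomial.eq_C_of_natDegree_eq_zero (hm.trans m0), c0, map_zero]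
    · have := ih _ (by rw [Polynomial.natDegree_divX_eq_natDegree_tsub_one]; omega) p.divX rfl
        ((mul_eq_zero.1 e).resolve_right h1)
      rw [← Polynomial.divX_mul_X_add p, this, c0]
      simp
  refine algebraicIndependent_iff.2 fun p hp => ?_
  refine (map_eq_zero_iff _ (MvPolynomial.optionEquivLeft ℂ ι).injective).1 (k _ _ rfl ?_)
  rw [← hp]
  clear hp
  induction p using MvPolynomial.induction_on with
  | C c => simp
  | add p q hp hq => simp only [map_add, Polynomial.eval₂_add, hp, hq]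
  | mul_X p i hp =>
    rw [map_mul, map_mul, Polynomial.eval₂_mul, map_mul, hp]
    cases i <;> simp

variable {K F : Type} [Field K] [Algebra ℂ K] [Field F] [Algebra ℂ F] [Algebra K F] {d k N : ℕ}

/-- prescribed orders at finitely many places -/
theorem pres (A : Finset (Pl K)) (n : Pl K → ℤ) : ∃ φ : K, φ ≠ 0 ∧ ∀ E ∈ A, E.ord φ = n E := by
  classical
  have inj : Function.Injective (Pl.toPlace : Pl K → _) := fun P Q h => by
    cases P; cases Q; cases h; rfl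
  have one : ∀ P : Pl K, ∃ u : K, u ≠ 0 ∧ ∀ Q ∈ A, Q.ord u = if Q = P then 1 else 0 := fun P => by
    obtain ⟨e, e0, e1, h1, h2, h3⟩ := Rm.approx P.toPlace ((A.erase P).image Pl.toPlace)
      (by simp [inj.eq_iff]) (1 + ∑ Q ∈ A, (Q.ord P.t).natAbs)
    have p0 := mul_ne_zero P.t_ne e0
    have n0 := neg_ne_zero.2 e1
    have a1 : P.ord (P.t * e) = 1 := by rw [Pl.ord_mul _ P.t_ne e0, h1, P.ord_t, add_zero]
    have a2 : P.ord (P.t * e + -(e - 1)) = 1 := by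
      rw [Pl.ord_add_eq_of_lt _ p0 n0 (by rw [a1, Pl.ord_neg]; omega), a1]
    refine ⟨P.t * e + -(e - 1), fun z => by rw [z] at a2; simp at a2, fun Q hQ => ?_⟩
    split_ifs with h
    · exact h ▸ a2
    · have b := h3 _ (Finset.mem_image_of_mem _ (Finset.mem_erase.2 ⟨h, hQ⟩))
      have c := Finset.single_le_sum (f := fun Q : Pl K => (Q.ord P.t).natAbs)
        (fun _ _ => Nat.zero_le _) hQ
      have b1 : Q.ord (-(e - 1)) = 0 := by
        rw [neg_sub, sub_eq_add_neg, Pl.ord_add_eq_of_lt _ one_ne_zero (neg_ne_zero.2 e0)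
          (by rw [Pl.ord_neg, Pl.ord_one]; omega), Pl.ord_one]
      rw [add_comm, Pl.ord_add_eq_of_lt _ n0 p0 (by rw [b1, Pl.ord_mul _ P.t_ne e0]; omega), b1]
  choose u u0 hu using one
  refine ⟨∏ P ∈ A, u P ^ n P, Finset.prod_ne_zero_iff.2 fun P _ => zpow_ne_zero _ (u0 P),
    fun E hE => ?_⟩
  have : ∀ B : Finset (Pl K), E.ord (∏ P ∈ B, u P ^ n P) = ∑ P ∈ B, n P * E.ord (u P) := fun B => by
    induction B using Finset.induction_on with
    | empty => simp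
    | insert P B h ih =>
      rw [Finset.prod_insert h, Finset.sum_insert h, Pl.ord_mul _ (zpow_ne_zero _ (u0 P))
        (Finset.prod_ne_zero_iff.2 fun P _ => zpow_ne_zero _ (u0 P)), ih, Pl.ord_zpow]
  simp [this, hu _ E hE, hE]

variable [IsScalarTower ℂ K F] {t : Fin k → F}

/-- the vector field of a one-parameter group -/
theorem euler (x : Ext K d t) (η : Fin k → ℤ) : ∃ θ : Derivation K F F,
    ∀ (φ : K) e, θ (hm t φ e) = ((e ⬝ᵥ η : ℤ) : F) * hm t φ e := by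
  have := x.ff'.ess
  have : CharZero K := charZero_of_injective_algebraMap (algebraMap ℂ K).injective
  have : Algebra.EssFiniteType K F := .of_comp ℂ K F
  have t0 := x.ind.ne_zero
  choose D hD using fun i => Gf.der_field x.ind i
  let θ : Derivation K F F := ∑ i, ((η i : F) * t i) • D i
  have h1 : ∀ j, θ (t j) = η j * t j := fun j => by
    have := congrFun (map_sum Derivation.coeFnAddMonoidHom
      (fun i => ((η i : F) * t i) • D i) Finset.univ) (t j)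
    rw [Finset.sum_apply] at this
    exact this.trans (by simp [hD])
  have h2 : ∀ (e : Fin k → ℤ) (B : Finset (Fin k)), θ (∏ i ∈ B, t i ^ e i) =
      ((∑ i ∈ B, e i * η i : ℤ) : F) * ∏ i ∈ B, t i ^ e i := fun e B => by
    induction B using Finset.induction_on with
    | empty => simp
    | insert i B h ih =>
      rw [Finset.prod_insert h, Finset.sum_insert h, θ.leibniz, ih, θ.leibniz_zpow, h1,
        zpow_sub_one₀ (t0 i)]
      have := t0 i
      simp only [smul_eq_mul, zsmul_eq_mul]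
      push_cast
      field_simp
      ring
  refine ⟨θ, fun φ e => ?_⟩
  rw [hm, θ.leibniz, θ.map_algebraMap, mon, h2, smul_zero, add_zero, smul_eq_mul, mul_left_comm]
  rfl

variable {T : Set (Pl K)} {D : Pl K → Fin k → ℤ} {s : Fin N → K} {a : Fin N → Fin k → ℤ}
  {κ : Type} [Field κ] [Algebra ℂ κ] {η : Fin k → ℤ}

theorem van (t0 : ∀ i, t i ≠ 0) (ρ : Rg s a t →ₐ[ℂ] κ)
    (h0 : ∀ j, a j ⬝ᵥ η ≠ 0 → ρ ⟨_, gen_mem s a t j⟩ = 0) (c : Fin N → ℕ) {j : Fin N}
    (hj : c j ≠ 0) (hη : a j ⬝ᵥ η ≠ 0) : ρ ⟨_, mem_Rg t0 (mon_mem s a c)⟩ = 0 := by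
  have : (⟨_, mem_Rg t0 (mon_mem s a c)⟩ : Rg s a t) = ∏ j, ⟨_, gen_mem s a t j⟩ ^ c j :=
    Subtype.ext ((hm_prod t0 s a c).trans (by simp))
  rw [this, map_prod, Finset.prod_eq_zero (Finset.mem_univ j)]
  rw [map_pow, h0 j hη, zero_pow hj]

theorem dg_dot (c : Fin N → ℕ) : dg a c ⬝ᵥ η = ∑ j, c j * (a j ⬝ᵥ η) := by
  simp only [dg, dotProduct, Finset.sum_mul, Finset.mul_sum, mul_assoc]
  exact Finset.sum_comm

theorem van' (t0 : ∀ i, t i ≠ 0) (ρ : Rg s a t →ₐ[ℂ] κ)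
    (h0 : ∀ j, a j ⬝ᵥ η ≠ 0 → ρ ⟨_, gen_mem s a t j⟩ = 0) {e : Fin k → ℤ} (he : e ⬝ᵥ η ≠ 0)
    {φ : K} (h : φ ∈ Sp s a e) : ρ ⟨_, mem_Rg t0 h⟩ = 0 := by
  induction h using Submodule.span_induction with
  | mem x hx =>
    obtain ⟨c, rfl, rfl⟩ := hx
    rw [dg_dot] at he
    obtain ⟨j, -, hj⟩ := Finset.exists_ne_zero_of_sum_ne_zero he
    exact van t0 ρ h0 c (fun z => hj (by simp [z])) (right_ne_zero_of_mul hj)
  | zero => exact (congrArg ρ (Subtype.ext (hm_zero t e))).trans (map_zero ρ)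
  | add x y hx hy h1 h2 =>
    refine (congrArg ρ (Subtype.ext (hm_add t x y e) :
      _ = (⟨_, mem_Rg t0 hx⟩ + ⟨_, mem_Rg t0 hy⟩ : Rg s a t))).trans ?_
    rw [map_add, h1, h2, add_zero]
  | smul c x hx h1 =>
    refine (congrArg ρ (Subtype.ext (hm_smul t c x e) :
      _ = (c • ⟨_, mem_Rg t0 hx⟩ : Rg s a t))).trans ?_
    rw [map_smul, h1, smul_zero]

/-- the primes at which the invariant sections off the fixed locus are units -/
theorem fam {y : Fin d → K} (x : Ext K d t) (hy : Frm y) (cx : Cox T D s a)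
    (ρ : Rg s a t →ₐ[ℂ] κ) {i : Fin N} (hi : a i ⬝ᵥ η ≠ 0) {ι : Type} [Fintype ι] (u : ι → Fin N)
    (hu : ∀ l, a (u l) ⬝ᵥ η = 0) (ind : AlgebraicIndependent ℂ fun l => ρ ⟨_, gen_mem s a t (u l)⟩)
    (dim : d + k ≤ Fintype.card ι + 2) {E : Pl K} (hE : E ∈ T)
    (H : ∀ e φ (h : φ ∈ Sp s a e), e ⬝ᵥ η = 0 → ρ ⟨_, mem_Rg x.ind.ne_zero h⟩ ≠ 0 →
      E.ord φ + e ⬝ᵥ D E = 0) {e : Fin k → ℤ} {φ : K} (h : φ ∈ Sp s a e) (φ0 : φ ≠ 0)
    (he : e ⬝ᵥ η = 0) (h0 : ρ ⟨_, mem_Rg x.ind.ne_zero h⟩ = 0) : E.ord φ + e ⬝ᵥ D E ≠ 0 := by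
  classical
  intro z
  have t0 := x.ind.ne_zero
  have : CharZero F := charZero_of_injective_algebraMap (algebraMap ℂ F).injective
  have : CharZero K := charZero_of_injective_algebraMap (algebraMap ℂ K).injective
  obtain ⟨θ, hθ⟩ := euler x η
  obtain ⟨v, hv⟩ := gav K F d k y t x hy E (D E)
  let A : Subalgebra ℂ (Rg s a t) :=
    { carrier := {b | θ b = 0}
      mul_mem' := fun {b c} (hb : θ _ = 0) (hc : θ _ = 0) => by
        change θ (b * c) = 0
        rw [θ.leibniz, hb, hc, smul_zero, smul_zero, add_zero]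
      add_mem' := fun {b c} (hb : θ _ = 0) (hc : θ _ = 0) => by
        change θ (b + c) = 0
        rw [map_add, hb, hc, add_zero]
      algebraMap_mem' := fun c => by
        change θ (algebraMap ℂ F c) = 0
        rw [IsScalarTower.algebraMap_apply ℂ K F, θ.map_algebraMap] }
  have sv : ∀ b ∈ Rg s a t, b ∈ v.ring := fun b hb => Cb.adj_mem (by
    rintro _ ⟨j, rfl⟩
    refine Cb.mem_ord ?_
    rw [hv.ord _ _ (cx.ne j)]
    have := mon_mem s a (Pi.single j 1)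
    rw [dg_single, Finset.prod_eq_single j (fun l _ h => by simp [h]) (by simp)] at this
    exact (cx.sec _ _ (cx.ne j)).1 (by simpa using this) E hE) hb
  have mA : ∀ e φ (h : φ ∈ Sp s a e), e ⬝ᵥ η = 0 → (⟨_, mem_Rg t0 h⟩ : Rg s a t) ∈ A :=
    fun e φ h he => (hθ φ e).trans (by rw [he, Int.cast_zero, zero_mul])
  have key : ∀ b : A, ((Cb.rdA (Rg s a t) sv).comp A.val) b = 0 → (ρ.comp A.val) b = 0 := by
    rintro ⟨⟨b, hb⟩, hb'⟩ r
    obtain ⟨ψ, h1, rfl⟩ := (mem_Rg_iff t0).1 hb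
    have h2 : ψ.sum (fun e φ => Finsupp.single e (((e ⬝ᵥ η : ℤ) : K) * φ)) = 0 := lv_inj x.ind (by
      rw [← show θ (lv t ψ) = 0 from hb', lv, lv, map_finsuppSum, Finsupp.sum_sum_index
        (hm_zero t) fun e b c => hm_add t b c e]
      refine Finsupp.sum_congr fun e _ => ?_
      rw [Finsupp.sum_single_index (hm_zero t e), hθ, hm, hm, map_mul, map_intCast, mul_assoc])
    have h3 : (⟨lv t ψ, hb⟩ : Rg s a t) = ∑ e ∈ ψ.support, ⟨_, mem_Rg t0 (h1 e)⟩ :=
      Subtype.ext (by simp [lv, Finsupp.sum])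
    change ρ ⟨lv t ψ, hb⟩ = 0
    rw [h3, map_sum]
    refine Finset.sum_eq_zero fun e he => by_contra fun n0 => ?_
    have h4 := DFunLike.congr_fun h2 e
    rw [Finsupp.sum_apply, Finsupp.sum, Finset.sum_eq_single e
      (fun _ _ h => Finsupp.single_eq_of_ne' h) (fun h => (h he).elim), Finsupp.single_eq_same] at h4
    have h5 := hv.min ψ e he
    rw [H e _ (h1 e) (by simpa [Finsupp.mem_support_iff.1 he] using h4) n0] at h5
    rcases Cb.mx_iff.1 ((Cb.rd_eq_zero (sv _ hb)).1 r) with r | r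
    · exact Finsupp.mem_support_iff.1 he (by rw [lv_inj x.ind r]; rfl)
    · exact r.not_ge h5
  have i1 := ind_opt _ _ key (y := fun l => ⟨⟨_, gen_mem s a t (u l)⟩, (hθ _ _).trans
      (by rw [hu, Int.cast_zero, zero_mul])⟩) ind (a := ⟨_, mA e φ h he⟩) h0 fun r => by
    rcases Cb.mx_iff.1 ((Cb.rd_eq_zero (sv _ (mem_Rg t0 h))).1 r) with r | r
    · exact hm_ne t0 φ0 e r
    · exact r.ne' ((hv.ord φ e φ0).trans z)
  let w : Option ι → F := fun o => o.elim (hm t φ e) fun l => hm t (s (u l)) (a (u l))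
  have w1 : ∀ o, w o ∈ v.ring := by
    rintro (_ | l)
    exacts [sv _ (mem_Rg t0 h), sv _ (gen_mem s a t _)]
  have w2 : AlgebraicIndependent ℂ fun o => v.rd (w o) := by
    refine Eq.mp (congrArg (fun z : Option ι → v.κ => AlgebraicIndependent ℂ z)
      (funext ?_)) i1
    rintro (_ | l) <;> rfl
  have i2 := AlgebraicIndependent.option_iff.2 ⟨Cb.ind_of_rd w1 w2, Cb.trans_of_mx w1 w2
    (hm_ne t0 E.t_ne 0) (Cb.mx_iff.2 (.inr (by rw [hv.ord _ _ E.t_ne, E.ord_t]; simp)))⟩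
  have dr : Cb.Dr (RingHom.id F) θ := ⟨map_add θ, fun b c => θ.leibniz b c⟩
  have i3 := AlgebraicIndependent.option_iff.2 ⟨i2, fun al : IsAlgebraic _ (hm t (s i) (a i)) => by
    have := dr.kill (fun c => by rw [IsScalarTower.algebraMap_apply ℂ K F, θ.map_algebraMap])
      (by
        rintro _ ⟨_ | _ | l, rfl⟩
        · exact (hθ _ _).trans (by simp)
        · exact mA e φ h he
        · exact (hθ _ _).trans (by rw [hu, Int.cast_zero, zero_mul])) al
    rw [hθ] at this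
    exact mul_ne_zero (Int.cast_ne_zero.2 hi) (hm_ne t0 (cx.ne i) _) this⟩
  have := i3.cardinalMk_le_trdeg
  rw [x.ff'.trdeg, Cardinal.mk_fintype, Nat.cast_le] at this
  simp at this
  omega

/-- **KR**: a one-parameter group with weights of both signs does not fix a locus of codimension
at most two -/
theorem kr {y : Fin d → K} (x : Ext K d t) (hy : Frm y) (cx : Cox T D s a)
    (ρ : Rg s a t →ₐ[ℂ] κ) (h0 : ∀ j, a j ⬝ᵥ η ≠ 0 → ρ ⟨_, gen_mem s a t j⟩ = 0) {i j : Fin N}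
    (hi : 0 < a i ⬝ᵥ η) (hj : a j ⬝ᵥ η < 0) {ι : Type} [Fintype ι] (u : ι → Fin N)
    (ind : AlgebraicIndependent ℂ fun l => ρ ⟨_, gen_mem s a t (u l)⟩)
    (dim : d + k ≤ Fintype.card ι + 2) : False := by
  classical
  have t0 := x.ind.ne_zero
  let c : Fin N → ℕ := Pi.single i (-(a j ⬝ᵥ η)).toNat + Pi.single j (a i ⬝ᵥ η).toNat
  have c0 : dg a c ⬝ᵥ η = 0 := by
    simp only [dg_dot, c, Pi.add_apply, Pi.single_apply, Nat.cast_add, Nat.cast_ite, add_mul,
      Finset.sum_add_distrib, ite_mul, Nat.cast_zero, zero_mul, Finset.sum_ite_eq',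
      Finset.mem_univ, if_true]
    rw [Int.toNat_of_nonneg hi.le, Int.toNat_of_nonneg (neg_nonneg.2 hj.le)]
    ring
  let Z : Set (Pl K) := {E | E ∈ T ∧ ∀ e φ (h : φ ∈ Sp s a e), e ⬝ᵥ η = 0 →
    ρ ⟨_, mem_Rg t0 h⟩ ≠ 0 → E.ord φ + e ⬝ᵥ D E = 0}
  have fin : Z.Finite := (cx.fin (∏ j, s j ^ c j) (dg a c)).subset fun E hE => ⟨hE.1,
    fam x hy cx ρ hi.ne' u (fun l => by_contra fun z => ind.ne_zero l (h0 _ z)) ind dim hE.1 hE.2
      (mon_mem s a c) (Finset.prod_ne_zero_iff.2 fun j _ => pow_ne_zero _ (cx.ne j)) c0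
      (van t0 ρ h0 c (j := j) (by simp only [c, Pi.add_apply, Pi.single_eq_same]; omega) hj.ne)⟩
  have ne : ∀ e φ (h : φ ∈ Sp s a e), ρ ⟨_, mem_Rg t0 h⟩ ≠ 0 → φ ≠ 0 := fun e φ h n0 z =>
    n0 ((congrArg ρ (Subtype.ext (z ▸ hm_zero t e))).trans (map_zero ρ))
  have mul : ∀ e φ (h : φ ∈ Sp s a e) e' φ' (h' : φ' ∈ Sp s a e'),
      ρ ⟨_, mem_Rg t0 (sp_mul h h')⟩ = ρ ⟨_, mem_Rg t0 h⟩ * ρ ⟨_, mem_Rg t0 h'⟩ :=
    fun e φ h e' φ' h' => (congrArg ρ (Subtype.ext (hm_mul t0 φ φ' e e'))).trans (map_mul ρ _ _)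
  have big : ∀ (B : Finset (Pl K)) (n : ℕ), ∃ e φ, ∃ h : φ ∈ Sp s a e, e ⬝ᵥ η = 0 ∧
      ρ ⟨_, mem_Rg t0 h⟩ ≠ 0 ∧ ∀ E ∈ B, E ∈ T → E ∉ Z → (n : ℤ) ≤ E.ord φ + e ⬝ᵥ D E := by
    have one : ∃ h : (1 : K) ∈ Sp s a 0, ρ ⟨_, mem_Rg t0 h⟩ ≠ 0 := by
      have := mon_mem s a 0
      rw [dg_zero] at this
      exact ⟨by simpa using this,
        fun z => one_ne_zero ((map_one ρ).symm.trans ((congrArg ρ (Subtype.ext (hm_one t).symm)).trans z))⟩
    intro B n
    induction B using Finset.induction_on with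
    | empty => exact ⟨0, 1, one.1, by simp, one.2, by simp⟩
    | insert P B _ ih =>
      obtain ⟨e, φ, h, h1, h2, h3⟩ := ih
      by_cases hP : P ∈ T ∧ P ∉ Z
      · have := hP.2
        simp only [Z, mem_setOf, hP.1, true_and, not_forall] at this
        obtain ⟨e', φ', h', k1, k2, k3⟩ := this
        have pw : ∀ m : ℕ, ∃ e φ, ∃ h : φ ∈ Sp s a e, e ⬝ᵥ η = 0 ∧ ρ ⟨_, mem_Rg t0 h⟩ ≠ 0 ∧
            (m : ℤ) ≤ P.ord φ + e ⬝ᵥ D P := fun m => by
          induction m with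
          | zero => exact ⟨0, 1, one.1, by simp, one.2, by simp⟩
          | succ m ih =>
            obtain ⟨e, φ, h, h1, h2, h3⟩ := ih
            refine ⟨_, _, sp_mul h h', by rw [add_dotProduct, h1, k1, add_zero],
              (mul _ _ h _ _ h').trans_ne (mul_ne_zero h2 k2), ?_⟩
            have := (cx.sec _ _ (ne _ _ h' k2)).1 h' P hP.1
            rw [Pl.ord_mul _ (ne _ _ h h2) (ne _ _ h' k2), add_dotProduct]
            omega
        obtain ⟨e', φ', h', k1, k2, k3⟩ := pw n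
        refine ⟨_, _, sp_mul h h', by rw [add_dotProduct, h1, k1, add_zero],
          (mul _ _ h _ _ h').trans_ne (mul_ne_zero h2 k2), fun E hE a1 a2 => ?_⟩
        have b1 := (cx.sec _ _ (ne _ _ h h2)).1 h E a1
        have b2 := (cx.sec _ _ (ne _ _ h' k2)).1 h' E a1
        rw [Pl.ord_mul _ (ne _ _ h h2) (ne _ _ h' k2), add_dotProduct]
        rcases Finset.mem_insert.1 hE with rfl | hE
        · omega
        · have := h3 E hE a1 a2
          omega
      · refine ⟨e, φ, h, h1, h2, fun E hE a1 a2 => ?_⟩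
        rcases Finset.mem_insert.1 hE with rfl | hE
        · exact (hP ⟨a1, a2⟩).elim
        · exact h3 E hE a1 a2
  obtain ⟨φ, φ0, hφ⟩ := pres fin.toFinset fun E => -(a i ⬝ᵥ D E)
  obtain ⟨e, σ, h, h1, h2, h3⟩ := big (cx.fin φ (a i)).toFinset
    (∑ E ∈ (cx.fin φ (a i)).toFinset, (E.ord φ + a i ⬝ᵥ D E).natAbs)
  have σ0 := ne _ _ h h2
  have bd : ∀ E ∈ T, |E.ord φ + a i ⬝ᵥ D E| ≤ E.ord σ + e ⬝ᵥ D E := fun E hE => by
    by_cases z : E.ord φ + a i ⬝ᵥ D E = 0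
    · rw [z]
      exact (cx.sec _ _ σ0).1 h E hE
    · have m : E ∈ (cx.fin φ (a i)).toFinset := (Finite.mem_toFinset _).2 ⟨hE, z⟩
      refine le_trans ?_ (h3 E m hE fun k => z (by rw [hφ E (fin.mem_toFinset.2 k)]; simp))
      rw [Int.abs_eq_natAbs, Nat.cast_le]
      exact Finset.single_le_sum (f := fun E : Pl K => (E.ord φ + a i ⬝ᵥ D E).natAbs)
        (fun _ _ => Nat.zero_le _) m
  have m1 : σ * φ ∈ Sp s a (e + a i) := (cx.sec _ _ (mul_ne_zero σ0 φ0)).2 fun E hE => by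
    have := (abs_le.1 (bd E hE)).1
    rw [Pl.ord_mul _ σ0 φ0, add_dotProduct]
    omega
  have m2 : σ * φ⁻¹ ∈ Sp s a (e + -a i) :=
    (cx.sec _ _ (mul_ne_zero σ0 (inv_ne_zero φ0))).2 fun E hE => by
      have := (abs_le.1 (bd E hE)).2
      rw [Pl.ord_mul _ σ0 (inv_ne_zero φ0), Pl.ord_inv, add_dotProduct, neg_dotProduct]
      omega
  refine mul_ne_zero h2 h2 ?_
  rw [← map_mul, show (⟨_, mem_Rg t0 h⟩ * ⟨_, mem_Rg t0 h⟩ : Rg s a t) =
    ⟨_, mem_Rg t0 m1⟩ * ⟨_, mem_Rg t0 m2⟩ from Subtype.ext (by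
      change hm t σ e * hm t σ e = hm t _ _ * hm t _ _
      rw [hm_mul t0, hm_mul t0, hm_inv t0]
      field_simp [hm_ne t0 φ0 (a i)]), map_mul,
    van' t0 ρ h0 (by rw [add_dotProduct, h1, zero_add]; exact hi.ne') m1, zero_mul]

end Vale.Agent.P283R.Hy
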