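import Vale.Agent.P297Z.Dim.Alg
import Vale.Agent.P283R.Gf.Sm

/-!
# P283R, block HY: generic points, differentials, weights
-/

set_option linter.all false

open MvPolynomial Set

noncomputable section

namespace Vale.Agent.P283R.Hy

open Vale.Agent.P297Z.Dim

variable {k σ τ : Type} [Field k] [Fintype σ] [DecidableEq σ] [Fintype τ] [DecidableEq τ]

/-- the Jacobian matrix at a point -/
def jm {κ : Type} [CommRing κ] [Algebra k κ] (x : σ → κ) (g : τ → MvPolynomial σ k) :
    Matrix τ σ κ := Matrix.of fun l j => aeval x (pderiv j (g l))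

/-- the consequence of log canonicity at the points of the cone `g = 0` -/
def LC (g : τ → MvPolynomial σ k) : Prop :=
  ∀ (κ : Type) [Field κ] [Algebra k κ] (x : σ → κ), (∀ l, aeval x (g l) = 0) →
    ∀ (ι : Type) [Fintype ι] (D : ι → Derivation k κ κ) (U : Submodule κ (σ → κ)) (L : Finset τ),
      LinearIndependent κ (fun i j => D i (x j)) → (∀ i, (fun j => D i (x j)) ∈ U) →
      (∀ l ∈ L, ∀ v ∈ U, (jm x g).mulVec v l = 0) →
      Fintype.card τ + L.card + Fintype.card ι + Module.finrank κ U ≤ 2 * Fintype.card σ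

theorem der_aeval {R A : Type} [CommRing R] [CommRing A] [Algebra R A] (D : Derivation R A A)
    (x : σ → A) (p : MvPolynomial σ R) :
    D (aeval x p) = ∑ j, aeval x (pderiv j p) * D (x j) := by
  induction p using MvPolynomial.induction_on with
  | C a => simp
  | add p q hp hq => simp [hp, hq, add_mul, Finset.sum_add_distrib]
  | mul_X p i hp =>
    simp only [map_mul, aeval_X, Derivation.leibniz, hp, smul_eq_mul, map_add, pderiv_X,
      add_mul, Finset.sum_add_distrib, Finset.mul_sum, Pi.single_apply, apply_ite, map_one,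
      map_zero, mul_one, mul_zero, ite_mul, zero_mul]
    rw [Finset.sum_ite_eq]
    simp [mul_assoc]

/-- the residue field -/
abbrev Kq (q : Ideal (MvPolynomial σ k)) : Type := FractionRing (MvPolynomial σ k ⧸ q)

/-- the generic point -/
def pt (q : Ideal (MvPolynomial σ k)) (j : σ) : Kq q :=
  algebraMap (MvPolynomial σ k ⧸ q) _ (Ideal.Quotient.mk q (X j))

theorem aeval_pt (q : Ideal (MvPolynomial σ k)) (p : MvPolynomial σ k) :
    aeval (pt q) p = algebraMap (MvPolynomial σ k ⧸ q) _ (Ideal.Quotient.mk q p) := by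
  have : (aeval (pt q) : MvPolynomial σ k →ₐ[k] Kq q) =
      (IsScalarTower.toAlgHom k (MvPolynomial σ k ⧸ q) (Kq q)).comp (Ideal.Quotient.mkₐ k q) :=
    algHom_ext fun j => by rw [aeval_X]; rfl
  rw [this]
  rfl

theorem pt_zero {q : Ideal (MvPolynomial σ k)} {p : MvPolynomial σ k} :
    aeval (pt q) p = 0 ↔ p ∈ q := by
  rw [aeval_pt, map_eq_zero_iff _ (IsFractionRing.injective _ _), Ideal.Quotient.eq_zero_iff_mem]

theorem pt_X {q : Ideal (MvPolynomial σ k)} {j : σ} : pt q j = 0 ↔ X j ∈ q := by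
  rw [← pt_zero, aeval_X]

/-- a transcendence basis among the coordinates -/
theorem exists_basis (q : Ideal (MvPolynomial σ k)) [q.IsPrime] :
    ∃ e : Fin (td k (MvPolynomial σ k ⧸ q)) → σ, AlgebraicIndependent k fun i => pt q (e i) := by
  have top : Algebra.adjoin k (range fun j => Ideal.Quotient.mk q (X j : MvPolynomial σ k)) = ⊤ := by
    rw [Algebra.adjoin_range_eq_range_aeval, AlgHom.range_eq_top]
    have : (aeval fun j => Ideal.Quotient.mk q (X j : MvPolynomial σ k)) = Ideal.Quotient.mkₐ k q :=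
      algHom_ext fun j => by rw [aeval_X]; rfl
    rw [this]
    exact Ideal.Quotient.mk_surjective
  have : Algebra.IsAlgebraic (Algebra.adjoin k
      (range fun j => Ideal.Quotient.mk q (X j : MvPolynomial σ k))) (MvPolynomial σ k ⧸ q) :=
    ⟨fun a => isAlgebraic_algebraMap (⟨a, top ▸ trivial⟩ : Algebra.adjoin k _)⟩
  have := (faithfulSMul_iff_algebraMap_injective k (MvPolynomial σ k ⧸ q)).2
    (algebraMap k _).injective
  obtain ⟨t, ht, hb⟩ := exists_isTranscendenceBasis_subset (R := k)
    (range fun j => Ideal.Quotient.mk q (X j : MvPolynomial σ k))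
  have c := hb.cardinalMk_eq_trdeg
  rw [trdeg_eq_td] at c
  obtain ⟨e⟩ := Cardinal.mk_eq_nat_iff.1 c
  choose s hs using fun a : t => ht a.2
  refine ⟨fun i => s (e.symm i), ?_⟩
  have := (hb.1.comp e.symm e.symm.injective).map'
    (f := IsScalarTower.toAlgHom k (MvPolynomial σ k ⧸ q) (Kq q)) (IsFractionRing.injective _ _)
  have e2 : (fun i => pt q (s (e.symm i))) = (IsScalarTower.toAlgHom k (MvPolynomial σ k ⧸ q)
      (Kq q)) ∘ Subtype.val ∘ e.symm := funext fun i => congrArg (algebraMap _ (Kq q)) (hs _)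
  exact e2 ▸ this

theorem exists_der [CharZero k] (q : Ideal (MvPolynomial σ k)) [q.IsPrime] :
    ∃ D : Fin (td k (MvPolynomial σ k ⧸ q)) → Derivation k (Kq q) (Kq q),
      LinearIndependent (Kq q) fun i j => D i (pt q j) := by
  obtain ⟨e, he⟩ := exists_basis q
  have : Algebra.EssFiniteType (MvPolynomial σ k ⧸ q) (Kq q) :=
    .of_isLocalization _ (nonZeroDivisors _)
  have : Algebra.EssFiniteType k (Kq q) := .comp _ (MvPolynomial σ k ⧸ q) _
  choose D hD using fun i => Gf.der_field he i
  refine ⟨D, Fintype.linearIndependent_iff.2 fun c h i => ?_⟩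
  have := congrFun h (e i)
  simpa [hD] using this

section wt

variable {M : Type} [AddCommGroup M] {w : σ → M} {p : MvPolynomial σ k} {n : M}

/-- a homogeneous polynomial of non-zero weight vanishes on the fixed locus -/
theorem hom_zero {A : Type} [CommRing A] [Algebra k A] {x : σ → A} (hx : ∀ j, w j ≠ 0 → x j = 0)
    (h : IsWeightedHomogeneous w p n) (hn : n ≠ 0) : aeval x p = 0 := by
  rw [p.as_sum, map_sum]
  refine Finset.sum_eq_zero fun m hm => ?_
  have e := h (mem_support_iff.1 hm)
  have : ∃ j ∈ m.support, w j ≠ 0 := by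
    by_contra! z
    refine hn ?_
    rw [← e, Finsupp.weight_apply]
    exact Finset.sum_eq_zero fun j hj => by simp [z j hj]
  obtain ⟨j, hj, z⟩ := this
  rw [aeval_monomial, Finsupp.prod, Finset.prod_eq_zero hj, mul_zero]
  rw [hx j z, zero_pow (Finsupp.mem_support_iff.1 hj)]

theorem hom_mem {q : Ideal (MvPolynomial σ k)} (hx : ∀ j, w j ≠ 0 → X j ∈ q)
    (h : IsWeightedHomogeneous w p n) (hn : n ≠ 0) : p ∈ q :=
  pt_zero.1 (hom_zero (fun j z => pt_X.2 (hx j z)) h hn)

theorem jm_zero {A : Type} [CommRing A] [Algebra k A] {x : σ → A} (hx : ∀ j, w j ≠ 0 → x j = 0)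
    {g : τ → MvPolynomial σ k} {l : τ} (h : IsWeightedHomogeneous w (g l) n) {j : σ}
    (hn : n ≠ w j) : jm x g l j = 0 :=
  hom_zero hx (h.pderiv (sub_add_cancel n (w j))) (sub_ne_zero.2 hn)

/-- graded substitutions -/
theorem hom_aeval {σ' κ : Type} [CommRing κ] [Algebra k κ] {w' : σ' → M}
    {y : σ → MvPolynomial σ' κ} (hy : ∀ j, IsWeightedHomogeneous w' (y j) (w j))
    (h : IsWeightedHomogeneous w p n) : IsWeightedHomogeneous w' (aeval y p) n := by
  rw [p.as_sum, map_sum]
  refine IsWeightedHomogeneous.sum _ _ _ fun m hm => ?_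
  rw [aeval_monomial, ← h (mem_support_iff.1 hm), IsScalarTower.algebraMap_apply k κ,
    algebraMap_eq]
  exact IsWeightedHomogeneous.C_mul
    (IsWeightedHomogeneous.prod _ _ _ fun j _ => (hy j).pow (m j)) _

end wt

variable [CharZero k] {g : τ → MvPolynomial σ k} {q : Ideal (MvPolynomial σ k)}

theorem td_bot (k σ : Type) [Field k] [Fintype σ] :
    td k (MvPolynomial σ k ⧸ (⊥ : Ideal (MvPolynomial σ k))) = Fintype.card σ := by
  rw [td_quot_bot, td_mvPolynomial, td_self, zero_add]

theorem der_ker {κ : Type} [CommRing κ] [Algebra k κ] {x : σ → κ} {l : τ} (h : aeval x (g l) = 0)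
    (D : Derivation k κ κ) : (jm x g).mulVec (fun j => D (x j)) l = 0 := by
  have := der_aeval D x (g l)
  rw [h, map_zero] at this
  exact this.symm

/-- **the components are generically reduced, of the expected dimension** -/
theorem rank (h : LC g) (hq : q ∈ (Ideal.span (range g)).minimalPrimes) :
    td k (MvPolynomial σ k ⧸ q) + Fintype.card τ = Fintype.card σ ∧
      LinearIndependent (Kq q) (jm (pt q) g).row := by
  have := hq.1.1
  have z : ∀ l, aeval (pt q) (g l) = 0 := fun l =>
    pt_zero.2 (hq.1.2 (Ideal.subset_span ⟨l, rfl⟩))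
  obtain ⟨D, hD⟩ := exists_der q
  have h1 := h _ _ z _ D (LinearMap.ker (jm (pt q) g).mulVecLin) Finset.univ hD
    (fun i => funext fun l => der_ker (z l) (D i)) fun l _ v hv => congrFun hv l
  have h2 := krull' (k := k) (q := ⊥) (f := g) (p := q) (by rwa [bot_sup_eq])
  have h3 := LinearMap.finrank_range_add_finrank_ker (jm (pt q) g).mulVecLin
  have h4 := Matrix.rank_le_card_height (jm (pt q) g)
  rw [td_bot] at h2
  rw [Module.finrank_fintype_fun_eq_card] at h3
  rw [Finset.card_univ, Fintype.card_fin] at h1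
  change (jm (pt q) g).rank + _ = _ at h3
  refine ⟨by omega, linearIndependent_iff_card_eq_finrank_span.2 ?_⟩
  rw [Set.finrank, ← Matrix.rank_eq_finrank_span_row]
  omega

end Vale.Agent.P283R.Hy
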